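import Vale.Agent.P254Z.Br.Cov
import Vale.Agent.P254Z.Row.Defs

/-! P254: the integrated row identities (terms of mean zero, the Poincare term). -/

set_option linter.all false

open MeasureTheory Filter Set Matrix
open scoped Topology NNReal

namespace Vale.Agent.P254Z.Asm

open Vale.Agent.P227.M Vale.Agent.P254 Vale.Agent.P254.S Vale.Agent.P254.S130 Vale.Agent.P254.SP620
open Vale.Agent.P254Z.Br Vale.Agent.P254Z.Row
open Vale.Agent.P254Z.Eq (Zf Am Gam chi2 Dfc Gauge)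

variable {n : ℕ} {φ V : E n → ℝ} {a b M κ : ℝ}

/-- entries are `PL` -/
def VPL (e : E n → Fin n → ℝ) : Prop := ∀ i, PL fun z => e z i

/-- entries are `PG` -/
def VPG (e : E n → Fin n → ℝ) : Prop := ∀ i, PG fun z => e z i

/-- entries are `PG` -/
def MG (W : E n → Matrix (Fin n) (Fin n) ℝ) : Prop := ∀ i j, PG fun z => W z i j

/-- entrywise derivative of a vector field -/
noncomputable def dV (e : E n → Fin n → ℝ) (z : E n) (k i : Fin n) : ℝ := pd k (fun y => e y i) z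

section basic

variable {e f : E n → Fin n → ℝ} {B W : E n → Matrix (Fin n) (Fin n) ℝ}

theorem VPL.g (he : VPL e) : VPG e := fun i => (he i).g
theorem VPL.d (he : VPL e) (k : Fin n) : VPG fun z => dV e z k := fun i => (he i).d k
theorem VPL.const (u : Fin n → ℝ) : VPL fun _ : E n => u := fun _ => PL.const _
theorem VPG.const (u : Fin n → ℝ) : VPG fun _ : E n => u := fun _ => PG.const _
theorem VPL.add (he : VPL e) (hf : VPL f) : VPL fun z => e z + f z := fun i => (he i).add (hf i)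
theorem VPL.sub (he : VPL e) (hf : VPL f) : VPL fun z => e z - f z := fun i => (he i).sub (hf i)
theorem VPL.smul (he : VPL e) (t : ℝ) : VPL fun z => t • e z := fun i => (he i).const_mul t
theorem VPG.add (he : VPG e) (hf : VPG f) : VPG fun z => e z + f z := fun i => (he i).add (hf i)
theorem VPG.sub (he : VPG e) (hf : VPG f) : VPG fun z => e z - f z := fun i => (he i).sub (hf i)
theorem VPG.smul (he : VPG e) (t : ℝ) : VPG fun z => t • e z := fun i => (he i).const_mul t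
theorem VPG.dot (he : VPG e) (hf : VPG f) : PG fun z => e z ⬝ᵥ f z := PG.sum _ fun i _ => (he i).mul (hf i)
theorem VPL.dot (he : VPL e) (hf : VPL f) : PL fun z => e z ⬝ᵥ f z := PL.sum _ fun i _ => (he i).mul (hf i)
theorem mpl_g (hB : MPL B) : MG B := fun i j => (hB i j).g
theorem mpl_d (hB : MPL B) (k : Fin n) : MG (dM B k) := fun i j => (hB i j).d k
theorem mpl_sub (hB : MPL B) (hW : MPL W) : MPL fun z => B z - W z := fun i j => (hB i j).sub (hW i j)
theorem MG.const (A : Matrix (Fin n) (Fin n) ℝ) : MG fun _ : E n => A := fun _ _ => PG.const _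
theorem MG.sub (hB : MG B) (hW : MG W) : MG fun z => B z - W z := fun i j => (hB i j).sub (hW i j)
theorem MG.mulVec (hB : MG B) (he : VPG e) : VPG fun z => B z *ᵥ e z :=
  fun i => PG.sum Finset.univ fun j _ => (hB i j).mul (he j)
theorem mpl_mulVec (hB : MPL B) (he : VPL e) : VPL fun z => B z *ᵥ e z :=
  fun i => PL.sum Finset.univ fun j _ => (hB i j).mul (he j)

theorem VPL.diff (he : VPL e) : ∀ᵐ z, ∀ i, DifferentiableAt ℝ (fun y => e y i) z :=
  ae_all_iff.2 fun i => (he i).diff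

theorem mpl_diff (hB : MPL B) : ∀ᵐ z, ∀ i j, DifferentiableAt ℝ (fun y => B y i j) z :=
  ae_all_iff.2 fun i => ae_all_iff.2 fun j => (hB i j).diff

theorem dV_const (u : Fin n → ℝ) (z : E n) : dV (fun _ => u) z = 0 := by
  funext k i
  exact rpd_const _ _ _

theorem dV_mulVec {z : E n} (hB : ∀ i j, DifferentiableAt ℝ (fun y => B y i j) z) (u : Fin n → ℝ) (k : Fin n) :
    dV (fun y => B y *ᵥ u) z k = dM B k z *ᵥ u := by
  funext i
  simp only [dV, mulVec, dotProduct, dM, of_apply]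
  rw [rpd_sum fun j _ => (hB i j).mul_const _]
  refine Finset.sum_congr rfl fun j _ => ?_
  rw [rpd_mul (hB i j) (differentiableAt_const _), rpd_const, mul_zero, add_zero]

theorem dV_add {z : E n} (he : ∀ i, DifferentiableAt ℝ (fun y => e y i) z)
    (hf : ∀ i, DifferentiableAt ℝ (fun y => f y i) z) (k : Fin n) :
    dV (fun y => e y + f y) z k = dV e z k + dV f z k := funext fun i => rpd_add (he i) (hf i)

theorem dV_sub {z : E n} (he : ∀ i, DifferentiableAt ℝ (fun y => e y i) z)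
    (hf : ∀ i, DifferentiableAt ℝ (fun y => f y i) z) (k : Fin n) :
    dV (fun y => e y - f y) z k = dV e z k - dV f z k := funext fun i => rpd_sub (he i) (hf i)

theorem dV_smul {z : E n} (he : ∀ i, DifferentiableAt ℝ (fun y => e y i) z) (t : ℝ) (k : Fin n) :
    dV (fun y => t • e y) z k = t • dV e z k := funext fun i => by
  have := rpd_mul (i := k) (differentiableAt_const t) (he i)
  rw [rpd_const, zero_mul, zero_add] at this
  exact this

theorem pd_dot {z : E n} (he : ∀ i, DifferentiableAt ℝ (fun y => e y i) z)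
    (hf : ∀ i, DifferentiableAt ℝ (fun y => f y i) z) (k : Fin n) :
    pd k (fun y => e y ⬝ᵥ f y) z = dV e z k ⬝ᵥ f z + e z ⬝ᵥ dV f z k := by
  simp only [dotProduct, dV]
  rw [rpd_sum fun i _ => (he i).fun_mul (hf i), ← Finset.sum_add_distrib]
  exact Finset.sum_congr rfl fun i _ => rpd_mul (he i) (hf i)

theorem int_dot (hB : MG B) (u v : Fin n → ℝ) :
    ∫ z, u ⬝ᵥ B z *ᵥ v ∂(gQ n) = u ⬝ᵥ (of fun i j => ∫ z, B z i j ∂(gQ n)) *ᵥ v := by
  simp only [dotProduct, mulVec, of_apply]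
  rw [integral_finsetSum _ fun i _ => ((PG.sum _ fun j _ => (hB i j).mul (PG.const _)).const_mul _).int]
  refine Finset.sum_congr rfl fun i _ => ?_
  rw [integral_const_mul, integral_finsetSum _ fun j _ => ((hB i j).mul (PG.const _)).int]
  simp only [integral_mul_const]

theorem pg_zS {dB : Fin n → E n → Matrix (Fin n) (Fin n) ℝ} {e' : E n → Fin n → Fin n → ℝ} (hB : MG B)
    (hd : ∀ k, MG (dB k)) (a : Fin n → Fin n → ℝ) (he : VPG e) (he' : ∀ k, VPG fun z => e' z k) :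
    PG fun z : E n => zS z.ofLp (B z) (fun k => dB k z) a (e z) (e' z) :=
  PG.sum _ fun k _ => (((PG.coord k).mul (he.dot (hB.mulVec (VPG.const _)))).sub
    (he.dot ((hd k).mulVec (VPG.const _)))).sub ((he' k).dot (hB.mulVec (VPG.const _)))

/-- (I1) a Stein term has mean zero -/
theorem int_zS (hB : MPL B) (a : Fin n → Fin n → ℝ) (he : VPL e) :
    ∫ z, zS z.ofLp (B z) (fun k => dM B k z) a (e z) (dV e z) ∂(gQ n) = 0 := by
  have hw : ∀ k, PL fun z => e z ⬝ᵥ B z *ᵥ a k := fun k => he.dot (mpl_mulVec hB (VPL.const _))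
  have h1 : ∫ z, ∑ k, (z k * (e z ⬝ᵥ B z *ᵥ a k) - pd k (fun z => e z ⬝ᵥ B z *ᵥ a k) z) ∂(gQ n) = 0 := by
    rw [integral_finsetSum _ fun k _ => (((PG.coord k).mul (hw k).g).sub ((hw k).d k)).int]
    refine Finset.sum_eq_zero fun k _ => ?_
    rw [integral_sub ((PG.coord k).mul (hw k).g).int ((hw k).d k).int, ibp (hw k) k, sub_self]
  rw [← h1]
  refine gQ_congr ?_
  filter_upwards [he.diff, mpl_diff hB] with z h2 h3
  refine Finset.sum_congr rfl fun k _ => ?_
  rw [pd_dot (f := fun y => B y *ᵥ a k) h2 (fun i => DifferentiableAt.fun_sum (u := Finset.univ) fun j _ =>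
    (h3 i j).mul_const (a k j)), dV_mulVec h3]
  ring

theorem int_zS0 (hB : MPL B) (a : Fin n → Fin n → ℝ) (u : Fin n → ℝ) :
    ∫ z, zS z.ofLp (B z) (fun k => dM B k z) a u 0 ∂(gQ n) = 0 := by
  simpa only [dV_const] using int_zS hB a (VPL.const u)

theorem lz_apply (x : Fin n → ℝ) (A : Fin n → Matrix (Fin n) (Fin n) ℝ) (i j : Fin n) :
    lz x A i j = ∑ k, A k i j * x k := by
  simp only [lz, Matrix.sum_apply, Matrix.smul_apply, smul_eq_mul, mul_comm]

theorem mpl_lz (A : Fin n → Matrix (Fin n) (Fin n) ℝ) : MPL fun z : E n => lz z.ofLp A := fun i j => by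
  simp only [lz_apply]
  exact PL.sum _ fun k _ => (PL.coord k).const_mul _

theorem diff_lz (A : Fin n → Matrix (Fin n) (Fin n) ℝ) (z : E n) (i j : Fin n) :
    DifferentiableAt ℝ (fun y : E n => lz y.ofLp A i j) z := by
  simp only [lz_apply]
  exact DifferentiableAt.fun_sum fun k _ => (rad_diff_coord k z).const_mul _

theorem dM_lz (A : Fin n → Matrix (Fin n) (Fin n) ℝ) (k : Fin n) (z : E n) :
    dM (fun z : E n => lz z.ofLp A) k z = A k := by
  ext i j
  simp only [dM, of_apply, lz_apply]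
  exact pd_inner (WithLp.toLp 2 fun l => A l i j) z k

theorem int_lz (A : Fin n → Matrix (Fin n) (Fin n) ℝ) (i j : Fin n) :
    ∫ z, lz z.ofLp A i j ∂(gQ n) = 0 := by
  simp only [lz_apply]
  rw [integral_finsetSum _ fun k _ => ((PG.coord k).const_mul _).int]
  simp [integral_const_mul, mean_coord]

theorem dM_sub_lz (A : Fin n → Matrix (Fin n) (Fin n) ℝ) {z : E n}
    (hB : ∀ i j, DifferentiableAt ℝ (fun y => B y i j) z) (k : Fin n) :
    dM (fun y => B y - lz y.ofLp A) k z = dM B k z - A k := by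
  rw [← dM_lz A k z]
  ext i j
  exact rpd_sub (hB i j) (diff_lz A z i j)

end basic

theorem cont_of {f f' : ℝ → ℝ} (h : ∀ x, HasDerivAt f (f' x) x) : Continuous f :=
  continuous_iff_continuousAt.2 fun x => (h x).continuousAt

theorem phi_der (x : ℝ) : HasDerivAt phi (phi1 x) x := by
  refine ((SF.b_hasDerivAt x).mul ((SF.b1_hasDerivAt x).const_add 1)).congr_deriv ?_
  unfold phi1 c1
  ring

theorem cont_phi1 : Continuous phi1 :=
  ((cont_of SF.b1_hasDerivAt).pow 2).add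
    ((cont_of SF.b1_hasDerivAt).add ((cont_of SF.b_hasDerivAt).mul (cont_of SF.b2_hasDerivAt)))

theorem ml_Z (h : BP φ V a b M κ) : MPL (Zf φ) := MPL.of_mbl (mbl_Zf h)

theorem mpl_b (h : BP φ V a b M κ) : MPL fun z => mf SF.b (Zf φ z) :=
  MPL.of_mbl (mbl_fZ h SF.b_hasDerivAt (cont_of SF.b1_hasDerivAt))

theorem mpl_b1 (h : BP φ V a b M κ) : MPL fun z => mf SF.b1 (Zf φ z) :=
  MPL.of_mbl (mbl_fZ h SF.b1_hasDerivAt (cont_of SF.b2_hasDerivAt))

theorem mpl_phi (h : BP φ V a b M κ) : MPL fun z => mf phi (Zf φ z) :=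
  MPL.of_mbl (mbl_fZ h phi_der cont_phi1)

theorem mpl_V (h : BP φ V a b M κ) : MPL fun z => Zf φ z - lz z.ofLp (Am φ) := mpl_sub (ml_Z h) (mpl_lz _)

theorem mpg_chi (h : BP φ V a b M κ) (k : Fin n) : MG fun z => dM (Zf φ) k z - Am φ k :=
  (mpl_d (ml_Z h) k).sub (MG.const _)

theorem int_chi (h : BP φ V a b M κ) (k i j : Fin n) : ∫ z, (dM (Zf φ) k z - Am φ k) i j ∂(gQ n) = 0 := by
  simp only [Matrix.sub_apply]
  rw [integral_sub (mpl_d (ml_Z h) k i j).int (integrable_const _)]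
  simp [Am]

theorem int_V (h : BP φ V a b M κ) (hG : Gauge φ) (i j : Fin n) :
    ∫ z, (Zf φ z - lz z.ofLp (Am φ)) i j ∂(gQ n) = 0 := by
  simp only [Matrix.sub_apply]
  rw [integral_sub (ml_Z h i j).g.int (mpl_lz _ i j).g.int, hG, int_lz, sub_self]

theorem int_dot0 {B : E n → Matrix (Fin n) (Fin n) ℝ} (hB : MG B) (h0 : ∀ i j, ∫ z, B z i j ∂(gQ n) = 0)
    (u v : Fin n → ℝ) : ∫ z, u ⬝ᵥ B z *ᵥ v ∂(gQ n) = 0 := by
  rw [int_dot hB]
  simp [h0, dotProduct, mulVec]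

/-- (I2) the terms of mean zero -/
theorem int_rowZ (h : BP φ V a b M κ) (hG : Gauge φ) (μ : Mu) (u : Fin n → ℝ) {e : E n → Fin n → ℝ}
    (he : VPL e) :
    (PG fun z : E n => rowZ μ z.ofLp (Am φ) (Zf φ z) (fun k => dM (Zf φ) k z)
      (fun k => dM (fun y => mf SF.b (Zf φ y)) k z) (fun k => dM (fun y => mf SF.b1 (Zf φ y)) k z)
      (fun k => dM (fun y => mf phi (Zf φ y)) k z) u (e z) (dV e z)) ∧
    ∫ z, rowZ μ z.ofLp (Am φ) (Zf φ z) (fun k => dM (Zf φ) k z)
      (fun k => dM (fun y => mf SF.b (Zf φ y)) k z) (fun k => dM (fun y => mf SF.b1 (Zf φ y)) k z)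
      (fun k => dM (fun y => mf phi (Zf φ y)) k z) u (e z) (dV e z) ∂(gQ n) = 0 := by
  have hu := VPG.const (n := n) u
  have h0 : ∀ k : Fin n, VPG fun z : E n => (0 : Fin n → Fin n → ℝ) k := fun k => VPG.const _
  have p1 := pg_zS (mpl_g (mpl_lz (Am φ))) (fun k => MG.const (Am φ k)) (fun k => Am φ k *ᵥ u) hu h0
  have p2 := pg_zS (mpl_g (mpl_V h)) (mpg_chi h) (fun k => Am φ k *ᵥ u) hu h0
  have p3' : ∀ k, PG fun z => Am φ k *ᵥ u ⬝ᵥ (dM (Zf φ) k z - Am φ k) *ᵥ u := fun k =>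
    (VPG.const _).dot ((mpg_chi h k).mulVec hu)
  have p3 : PG fun z => ∑ k, Am φ k *ᵥ u ⬝ᵥ (dM (Zf φ) k z - Am φ k) *ᵥ u := PG.sum _ fun k _ => p3' k
  have p4 := pg_zS (mpl_g (mpl_b1 h)) (mpl_d (mpl_b1 h)) (fun k => Am φ k *ᵥ u) he.g he.d
  have p5 := pg_zS (mpl_g (mpl_phi h)) (mpl_d (mpl_phi h)) (fun k => Am φ k *ᵥ u) hu h0
  have p6 := pg_zS (mpl_g (mpl_b h)) (mpl_d (mpl_b h)) (fun k => Am φ k *ᵥ u) hu h0
  have p7 := hu.dot ((mpl_g (mpl_V h)).mulVec hu)
  have p8 := hu.dot ((mpl_g (ml_Z h)).mulVec hu)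
  have e1 := int_zS0 (mpl_lz (Am φ)) (fun k => Am φ k *ᵥ u) u
  simp only [dM_lz] at e1
  have e2 : ∫ z, zS z.ofLp (Zf φ z - lz z.ofLp (Am φ)) (fun k => dM (Zf φ) k z - Am φ k)
      (fun k => Am φ k *ᵥ u) u 0 ∂(gQ n) = 0 := by
    rw [← int_zS0 (mpl_V h) (fun k => Am φ k *ᵥ u) u]
    refine gQ_congr ?_
    filter_upwards [mpl_diff (ml_Z h)] with z hz
    simp only [dM_sub_lz _ hz]
  have e3 : ∫ z, ∑ k, Am φ k *ᵥ u ⬝ᵥ (dM (Zf φ) k z - Am φ k) *ᵥ u ∂(gQ n) = 0 := by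
    rw [integral_finsetSum _ fun k _ => (p3' k).int]
    exact Finset.sum_eq_zero fun k _ => int_dot0 (mpg_chi h k) (int_chi h k) _ _
  have e4 := int_zS (mpl_b1 h) (fun k => Am φ k *ᵥ u) he
  have e5 := int_zS0 (mpl_phi h) (fun k => Am φ k *ᵥ u) u
  have e6 := int_zS0 (mpl_b h) (fun k => Am φ k *ᵥ u) u
  have e7 := int_dot0 (mpl_g (mpl_V h)) (int_V h hG) u u
  have e8 := int_dot0 (mpl_g (ml_Z h)) hG u u
  have q1 := (p1.const_mul (1 - μ.k2)).add (p2.const_mul (2 - μ.F1 - 2 * μ.k2))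
  have q2 := q1.add (p3.const_mul (μ.cm - μ.cp - μ.F1 - 2 * μ.k2))
  have q3 := q2.add (p4.const_mul (2 * μ.y1))
  have q4 := q3.sub (p5.const_mul μ.al)
  have q5 := q4.sub (p6.const_mul μ.ka)
  have q6 := q5.sub (p7.const_mul μ.F0)
  refine ⟨q6.sub (p8.const_mul μ.k1), ?_⟩
  unfold rowZ
  rw [integral_sub q6.int (p8.const_mul _).int, integral_sub q5.int (p7.const_mul _).int,
    integral_sub q4.int (p6.const_mul _).int, integral_sub q3.int (p5.const_mul _).int,
    integral_add q2.int (p4.const_mul _).int, integral_add q1.int (p3.const_mul _).int,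
    integral_add (p1.const_mul _).int (p2.const_mul _).int]
  simp only [integral_const_mul]
  rw [e1, e2, e3, e4, e5, e6, e7, e8]
  simp

theorem pg_poi (om : ℝ) {v w : E n → Fin n → ℝ} {f : E n → Fin n → Fin n → ℝ} (hv : VPG v) (hw : VPG w)
    (hf : ∀ k, VPG fun z => f z k) : PG fun z => poi om (v z) (w z) (f z) :=
  (((hv.dot hv).const_mul _).add ((hv.dot hw).const_mul _)).sub (PG.sum _ fun k _ => (hf k).dot (hf k))

theorem int_poi (om : ℝ) {v w : E n → Fin n → ℝ} (hv : VPL v) (hw : VPL w) (h0 : ∀ i, ∫ z, v z i ∂(gQ n) = 0)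
    (h1 : ∀ k i, ∫ z, dV v z k i ∂(gQ n) = 0) :
    ∫ z, poi om (v z) (w z) (fun k => dV v z k + dV w z k) ∂(gQ n) ≤ 0 := by
  have h2 := Finset.sum_le_sum fun i (_ : i ∈ Finset.univ) =>
    poincare2_om (hv i) (hw i) (h0 i) (fun k => by rw [← ibp (hv i) k]; exact h1 k i) om
  have p3 : ∀ k, VPG fun z => dV v z k + dV w z k := fun k => (hv.d k).add (hw.d k)
  have i1 := (hv.g.dot hv.g).const_mul (2 * (1 - om ^ 2))
  have i2 := (hv.g.dot hw.g).const_mul (4 * (1 + om))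
  unfold poi
  rw [integral_sub (i1.add i2).int (PG.sum _ fun k _ => (p3 k).dot (p3 k)).int, integral_add i1.int i2.int,
    integral_const_mul, integral_const_mul, integral_finsetSum _ fun k _ => ((p3 k).dot (p3 k)).int, sub_nonpos]
  simp only [dotProduct]
  rw [integral_finsetSum _ fun i _ => ((hv.g i).mul (hv.g i)).int,
    integral_finsetSum _ fun i _ => ((hv.g i).mul (hw.g i)).int, Finset.mul_sum, Finset.mul_sum,
    ← Finset.sum_add_distrib]
  simp only [← sq]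
  refine h2.trans (le_of_eq ?_)
  rw [Finset.sum_comm]
  refine Finset.sum_congr rfl fun k _ => ?_
  rw [integral_finsetSum _ fun i _ => ((p3 k i).pow 2).int]
  rfl

/-- (I3) the Poincare term -/
theorem int_rowP (h : BP φ V a b M κ) (hG : Gauge φ) (μ : Mu) (u : Fin n → ℝ) {e : E n → Fin n → ℝ}
    (he : VPL e) :
    (PG fun z : E n => rowP μ z.ofLp (Am φ) (Zf φ z) (fun k => dM (Zf φ) k z)
      (fun k => dM (fun y => mf SF.b (Zf φ y)) k z) u (e z) (dV e z)) ∧
    ∫ z, rowP μ z.ofLp (Am φ) (Zf φ z) (fun k => dM (Zf φ) k z)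
      (fun k => dM (fun y => mf SF.b (Zf φ y)) k z) u (e z) (dV e z) ∂(gQ n) ≤ 0 := by
  have hv : VPL fun z => (Zf φ z - lz z.ofLp (Am φ)) *ᵥ u := mpl_mulVec (mpl_V h) (VPL.const u)
  have hb : VPL fun z => mf SF.b (Zf φ z) *ᵥ u := mpl_mulVec (mpl_b h) (VPL.const u)
  have hw := (he.smul μ.t).add (hb.smul μ.r)
  have hd : ∀ᵐ z, ∀ k, dV (fun z => (Zf φ z - lz z.ofLp (Am φ)) *ᵥ u) z k = (dM (Zf φ) k z - Am φ k) *ᵥ u := by
    filter_upwards [mpl_diff (ml_Z h), mpl_diff (mpl_V h)] with z h1 h2 k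
    rw [dV_mulVec h2, dM_sub_lz _ h1]
  have h0 : ∀ {B : E n → Matrix (Fin n) (Fin n) ℝ}, MG B → (∀ i j, ∫ z, B z i j ∂(gQ n) = 0) → ∀ i,
      ∫ z, (B z *ᵥ u) i ∂(gQ n) = 0 := fun hB h0 i => by
    simpa using int_dot0 hB h0 (Pi.single i 1) u
  refine ⟨pg_poi _ hv.g hw.g fun k => ((mpg_chi h k).mulVec (VPG.const u)).add
    (((he.d k).smul _).add (((mpl_d (mpl_b h) k).mulVec (VPG.const u)).smul _)), ?_⟩
  refine le_of_eq_of_le (gQ_congr ?_) (int_poi μ.om hv hw (h0 (mpl_g (mpl_V h)) (int_V h hG)) fun k i => by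
    rw [← h0 (mpg_chi h k) (int_chi h k) i]
    exact gQ_congr (hd.mono fun z hz => congrFun (hz k) i))
  filter_upwards [hd, he.diff, hb.diff, (he.smul μ.t).diff, (hb.smul μ.r).diff, mpl_diff (mpl_b h)]
    with z h1 h2 h3 h4 h5 h6
  simp only [rowP, h1, dV_add h4 h5, dV_smul h2, dV_smul h3, dV_mulVec h6]

end Vale.Agent.P254Z.Asm
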