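import Vale.Agent.P254Z.Br.Master
import Vale.Agent.P254Z.Asm.Int
import Vale.Agent.P254Z.Row.Pt

/-! P254: the main inequality from the scalar certificate. -/

set_option linter.all false

open MeasureTheory Filter Set Matrix
open scoped Topology

namespace Vale.Agent.P254Z.Asm

open Vale.Agent.P227.M Vale.Agent.P254 Vale.Agent.P254.S Vale.Agent.P254.S130 Vale.Agent.P254.SP620
open Vale.Agent.P254Z.Br Vale.Agent.P254Z.Row
open Vale.Agent.P254Z.Eq (Zf Am Gam chi2 Dfc Gauge)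

variable {n : ℕ} {φ V : E n → ℝ} {a b M κ c C : ℝ}

/-- the terms of mean zero, as a function of the point -/
noncomputable def fZ (φ : E n → ℝ) (μ : Mu) (u : Fin n → ℝ) (e : E n → Fin n → ℝ) (z : E n) : ℝ :=
  rowZ μ (fun i => z i) (Am φ) (Zf φ z) (fun k => dM (Zf φ) k z) (fun k => dM (Bf φ) k z)
    (fun k => dM (fun y => mf SF.b1 (Zf φ y)) k z) (fun k => dM (fun y => mf phi (Zf φ y)) k z) u
    (e z) fun k i => pd k (fun y => e y i) z

/-- the Poincare term, as a function of the point -/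
noncomputable def fP (φ : E n → ℝ) (μ : Mu) (u : Fin n → ℝ) (e : E n → Fin n → ℝ) (z : E n) : ℝ :=
  rowP μ (fun i => z i) (Am φ) (Zf φ z) (fun k => dM (Zf φ) k z) (fun k => dM (Bf φ) k z) u
    (e z) fun k i => pd k (fun y => e y i) z

/-- the integrated row identities -/
theorem int_rows (h : BP φ V a b M κ) (hG : Gauge φ) (μ : Mu) (u : Fin n → ℝ)
    (e : E n → Fin n → ℝ) (he : ∀ i, PL fun z => e z i) :
    (PG (fZ φ μ u e) ∧ ∫ z, fZ φ μ u e z ∂(gQ n) = 0) ∧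
      PG (fP φ μ u e) ∧ ∫ z, fP φ μ u e z ∂(gQ n) ≤ 0 :=
  ⟨int_rowZ h hG μ u he, int_rowP h hG μ u he⟩

theorem rowG_eq {Z U : Matrix (Fin n) (Fin n) ℝ} {s : Fin n → ℝ} (hd : Dec Z U s) (μ : Mu)
    (D dB : Fin n → Matrix (Fin n) (Fin n) ℝ) (u η : Fin n → ℝ) (η' : Fin n → Fin n → ℝ) :
    rowG μ Z D dB u (η - mf SF.b Z *ᵥ u) (fun k => η' k - dB k *ᵥ u) =
      (u ⬝ᵥ mf (fun s => 2 * SF.E0 s - SF.b s ^ 2) Z *ᵥ u - ∑ k, dB k *ᵥ u ⬝ᵥ dB k *ᵥ u) +
      (∑ k, D k *ᵥ u ⬝ᵥ D k *ᵥ u - Z *ᵥ u ⬝ᵥ Z *ᵥ u) -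
      (μ.y1 * (2 * (mf SF.h Z *ᵥ u ⬝ᵥ η) - η ⬝ᵥ η - ∑ k, ∑ i, η' k i ^ 2) +
        μ.y2 * (mf SF.h Z *ᵥ u ⬝ᵥ mf SF.h Z *ᵥ u)) := by
  have h1 : ∀ F G : ℝ → ℝ, u ⬝ᵥ mf (fun s => F s * G s) Z *ᵥ u = mf F Z *ᵥ u ⬝ᵥ mf G Z *ᵥ u :=
    fun F G => by
      rw [← hd.mf_mul, ← mulVec_mulVec, dotProduct_mulVec, ← mulVec_transpose, hd.mf_symm]
  have h2 : u ⬝ᵥ mf (fun s => 2 * SF.E0 s - SF.b s ^ 2) Z *ᵥ u =
      2 * (mf SF.h Z *ᵥ u ⬝ᵥ mf SF.b Z *ᵥ u) - mf SF.b Z *ᵥ u ⬝ᵥ mf SF.b Z *ᵥ u := by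
    have e : (fun s => 2 * SF.E0 s - SF.b s ^ 2) =
        fun s => 2 * (SF.h s * SF.b s) - SF.b s * SF.b s := funext fun s => by
      rw [SF.b, mul_div_cancel₀ _ (SF.h_pos s).ne', sq]
    rw [e, hd.mf_sub, hd.mf_smul, sub_mulVec, smul_mulVec, dotProduct_sub, dotProduct_smul, h1, h1,
      smul_eq_mul]
  have h3 : ∀ k, ∑ i, η' k i ^ 2 = η' k ⬝ᵥ η' k := fun k => by simp only [dotProduct, sq]
  rw [rowG, hd.mf_sub SF.h SF.b, sub_mulVec]
  simp only [h2, h3, dotProduct_sub, sub_dotProduct, Finset.sum_sub_distrib,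
    dotProduct_comm (dB _ *ᵥ u) (η' _), dotProduct_comm η, dotProduct_comm (mf SF.b Z *ᵥ u) (mf SF.h Z *ᵥ u)]
  ring

theorem sum_quad {W : Matrix (Fin n) (Fin n) ℝ} (hW : Wᵀ * W = 1) (X : Matrix (Fin n) (Fin n) ℝ) :
    ∑ j, Row.col W j ⬝ᵥ X *ᵥ Row.col W j = X.trace := by
  simpa using sum_rows_dot hW 1 X

theorem sum_sq {W : Matrix (Fin n) (Fin n) ℝ} (hW : Wᵀ * W = 1) (X : Matrix (Fin n) (Fin n) ℝ) :
    ∑ j, X *ᵥ Row.col W j ⬝ᵥ X *ᵥ Row.col W j = fr X := by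
  rw [sum_rows_dot hW, fr_eq]

theorem Am_symm (h : BP φ V a b M κ) (k : Fin n) : (Am φ k)ᵀ = Am φ k := by
  ext i j
  simp only [Am, transpose_apply, of_apply]
  congr 1
  funext z
  exact congrFun (congrFun (dZ_symm h k z) i) j

theorem pg_fr {X : E n → Matrix (Fin n) (Fin n) ℝ} (hX : ∀ i j, PG fun z => X z i j) :
    PG fun z => fr (X z) := PG.sum _ fun i _ => PG.sum _ fun j _ => (hX i j).pow 2

theorem pg_mv {X : E n → Matrix (Fin n) (Fin n) ℝ} (hX : ∀ i j, PG fun z => X z i j)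
    (u : Fin n → ℝ) (i : Fin n) : PG fun z => (X z *ᵥ u) i :=
  PG.sum Finset.univ fun j _ => (hX i j).mul (PG.const (u j))

theorem pg_dot {v w : E n → Fin n → ℝ} (hv : ∀ i, PG fun z => v z i) (hw : ∀ i, PG fun z => w z i) :
    PG fun z => v z ⬝ᵥ w z := PG.sum _ fun i _ => (hv i).mul (hw i)

/-- **the main inequality** from the scalar certificate -/
theorem stmtMargin_of (H : StmtCert) : Eq.StmtMargin := by
  obtain ⟨β, hβ, H⟩ := H
  refine fun n => ⟨β.ep / 2, half_pos hβ.ep, fun φ V c C a b M κ hV h hG => ?_⟩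
  obtain ⟨W, g, hW⟩ := exists_dec (A := ∑ k, Am φ k * Am φ k) (by
    rw [transpose_sum]
    exact Finset.sum_congr rfl fun k _ => by rw [transpose_mul, Am_symm h])
  choose μ hμ using fun j => H (g j) (gam_nonneg (Am_symm h) hW j)
  have hK : 0 ≤ ∑ j, (μ j).y1 := Finset.sum_nonneg fun j _ => (hμ j).y1
  refine le_of_forall_pos_le_add fun δ hδ => ?_
  have hδ' : 0 < δ / (∑ j, (μ j).y1 + 1) := by positivity
  choose η h1 h2 h3 h4 h5 using fun j => cov_dual h (Row.col W j) hδ'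
  set e : Fin n → E n → Fin n → ℝ := fun j z => η j z - Bf φ z *ᵥ Row.col W j with he
  have hB : ∀ j i, PL fun z => (Bf φ z *ᵥ Row.col W j) i := fun j i =>
    PL.sum Finset.univ fun l _ => (mpl_B h i l).mul (PL.const (W l j))
  have hJ := fun j => int_rows h hG (μ j) (Row.col W j) (e j) fun i => (h1 j i).sub (hB j i)
  have pM := fun j => pg_mv (fun i l => (pl_hess h i l).g) (Row.col W j)
  have p1 := fun j => (((pg_dot (pM j) fun i => (h1 j i).g).const_mul 2).sub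
    (pg_dot (fun i => (h1 j i).g) fun i => (h1 j i).g)).sub
    (PG.sum Finset.univ fun k _ => PG.sum Finset.univ fun i _ => (h2 j i k).g.pow 2)
  have p2 := fun j => pg_dot (pM j) (pM j)
  have p3 := fun j => (p1 j).const_mul (μ j).y1
  have p4 := fun j => (p2 j).const_mul (μ j).y2
  have p5 := PG.sum Finset.univ fun j _ => (p3 j).add (p4 j)
  have p6 := fun j => (hJ j).2.1.const_mul (μ j).l
  have p7 := PG.sum Finset.univ fun j _ => (hJ j).1.1.add (p6 j)
  have q1 : PG fun z => (mf (fun s => 2 * SF.E0 s - SF.b s ^ 2) (Zf φ z)).trace :=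
    PG.sum _ fun i _ => (mpl_c0 h i i).g
  have q2 : PG fun z => ∑ k, fr (dM (Bf φ) k z) :=
    PG.sum _ fun k _ => pg_fr fun i j => (mpl_B h i j).d k
  have q3 : PG fun z => ∑ k, fr (dM (Zf φ) k z) :=
    PG.sum _ fun k _ => pg_fr fun i j => (mpl_Z h i j).d k
  have q4 : PG fun z => fr (Zf φ z) := pg_fr fun i j => (mpl_Z h i j).g
  have q5 : PG fun z => ∑ k, fr (dM (Zf φ) k z - Am φ k) :=
    PG.sum _ fun k _ => pg_fr fun i j => ((mpl_Z h i j).d k).sub (PG.const _)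
  have r1 := (q1.sub q2).add (q3.sub q4)
  have key := gQ_mono ((PG.const (∑ j, ((μ j).t0 + g j * (μ j).t1))).add (q5.const_mul β.ep))
    (((r1.sub p5).add p7).add (pg_Sl h)) (by
    filter_upwards [ae_goodZ h, ae_all_iff.2 fun j => ae_all_iff.2 fun i => (h1 j i).diff,
      ae_all_iff.2 fun j => ae_all_iff.2 fun i => (mpl_B h j i).diff] with z hz hz1 hz2
    obtain ⟨U, s, hU⟩ := exists_dec_Z h z
    have e1 : ∀ j, (fun k i => pd k (fun y => e j y i) z) =
        fun k => (fun i => pd k (fun y => η j y i) z) - dM (Bf φ) k z *ᵥ Row.col W j := fun j => by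
      funext k i
      have d1 : ∀ l ∈ Finset.univ, DifferentiableAt ℝ (fun y => Bf φ y i l * Row.col W j l) z :=
        fun l _ => (hz2 i l).mul_const _
      refine (rpd_sub (hz1 j i) (DifferentiableAt.fun_sum d1)).trans ?_
      rw [rpd_sum d1]
      refine congrArg _ (Finset.sum_congr rfl fun l _ => ?_)
      rw [rpd_mul (hz2 i l) (differentiableAt_const _), rpd_const, mul_zero, add_zero]
      rfl
    have h6 := row_pt hβ (Am_symm h) hW hμ (fun i => z i) hU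
      (fun k => dZ_symm h k z) (dM_fZ h SF.b_hasDerivAt (cont_of SF.b1_hasDerivAt) hz hU)
      (dM_fZ h SF.b1_hasDerivAt (cont_of SF.b2_hasDerivAt) hz hU) (dM_fZ h phi_der cont_phi1 hz hU)
      (fun j => e j z)
      fun j k i => pd k (fun y => e j y i) z
    simp only [add_assoc (rowG _ _ _ _ _ _ _)] at h6
    rw [Finset.sum_add_distrib (f := fun j => rowG _ _ _ _ _ _ _)] at h6
    refine h6.trans (add_le_add (add_le_add (le_of_eq ?_) le_rfl) (Sl_ge h hz hU))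
    simp only [e1]
    refine (Finset.sum_congr rfl fun j _ => rowG_eq hU _ _ _ _ _ _).trans ?_
    rw [Finset.sum_sub_distrib, Finset.sum_add_distrib, Finset.sum_sub_distrib,
      Finset.sum_sub_distrib, sum_quad hW.orth, sum_sq hW.orth, Finset.sum_comm,
      Finset.sum_comm (f := fun j k => dM (Zf φ) k z *ᵥ Row.col W j ⬝ᵥ dM (Zf φ) k z *ᵥ Row.col W j), h_Z h]
    simp only [sum_sq hW.orth]
    rfl)
  rw [integral_add (integrable_const _) (q5.const_mul _).int, integral_const_mul,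
    integral_add ((r1.sub p5).add p7).int (pg_Sl h).int, integral_add (r1.sub p5).int p7.int,
    integral_sub r1.int p5.int, integral_add (q1.sub q2).int (q3.sub q4).int,
    integral_sub q1.int q2.int, integral_sub q3.int q4.int,
    integral_finsetSum _ fun j _ => ((p3 j).add (p4 j)).int,
    integral_finsetSum _ fun j _ => ((hJ j).1.1.add (p6 j)).int] at key
  simp only [fun j => integral_add (p3 j).int (p4 j).int,
    fun j => integral_add (hJ j).1.1.int (p6 j).int, integral_const_mul, integral_const,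
    probReal_univ, smul_eq_mul, one_mul, fun j => (hJ j).1.2, zero_add] at key
  have k1 := master hV h
  have k2 := cov_logdet h hW.orth fun j => (hμ j).y
  have k3 : ∑ j, (μ j).l * ∫ z, fP φ (μ j) (Row.col W j) (e j) z ∂(gQ n) ≤ 0 :=
    Finset.sum_nonpos fun j _ => mul_nonpos_of_nonneg_of_nonpos (hμ j).l (hJ j).2.2
  have k4 := Finset.sum_le_sum fun j (_ : j ∈ Finset.univ) => add_le_add
    (mul_le_mul_of_nonneg_left (h5 j) (hμ j).y1)
    (mul_le_mul_of_nonneg_left (cov_poin h (Row.col W j)) (hμ j).y2)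
  have k5 := Finset.sum_le_sum fun j (_ : j ∈ Finset.univ) => (hμ j).T
  have k6 := mul_le_mul_of_nonneg_left (sum_min hW) hβ.ep.le
  have k7 : (∑ j, (μ j).y1) * (δ / (∑ j, (μ j).y1 + 1)) ≤ δ := by
    rw [← mul_div_assoc, div_le_iff₀ (by positivity)]
    nlinarith
  simp only [← add_mul, mul_add, add_right_comm _ (_ * (δ / _))] at k4
  rw [Finset.sum_add_distrib (g := fun j => _ * (δ / _)), ← Finset.sum_mul] at k4
  rw [← Finset.mul_sum] at k5
  simp only [add_assoc] at k5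
  rw [Finset.sum_add_distrib] at k5
  rw [Finset.sum_sub_distrib, Finset.sum_add_distrib] at k2
  simp only [Finset.sum_const, Finset.card_univ, Fintype.card_fin, nsmul_eq_mul, mul_one] at k2
  unfold chi2 Gam
  change _ - ∑ j, _ * (Row.col W j ⬝ᵥ covV V *ᵥ Row.col W j) ≤ _ at k2
  linarith

end Vale.Agent.P254Z.Asm
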